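import Vale.Agent.P159.TM.H694.Top
import Vale.Agent.P159.TM.Frame.T1

/-!
P159: the critical XY model on the square lattice. The helicity modulus at the critical point is
`2 / π`, and the two-point function decays with the exponent `1 / 4`.
-/

open Filter Topology Vale.Agent.P159 Vale.Agent.P159.H950

namespace Vale.Agent.Results.P159.CriticalExponent

theorem result :
    -- the helicity modulus has the universal jump `2 / π`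
    (helicity bCrit = 2 / Real.pi ∧ (∀ b : ℝ, 0 < b → b < bCrit → helicity b = 0) ∧
      Tendsto helicity (𝓝[>] bCrit) (𝓝 (2 / Real.pi)) ∧
      ∀ b : ℝ, bCrit < b → 2 / Real.pi < helicity b) ∧
    -- the two-point function at the critical point has the exponent `1 / 4`
    (Tendsto (fun r : ℕ => Real.log (corrInf bCrit ((r : ℤ), 0)) / Real.log r) atTop
      (𝓝 (-(1 / 4)))) ∧
    (Tendsto (fun x : ℤ × ℤ => Real.log (corrInf bCrit x) /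
      Real.log ((max |x.1| |x.2| : ℤ) : ℝ)) cofinite (𝓝 (-(1 / 4)))) ∧
    (∀ ε : ℝ, 0 < ε → ∃ c K : ℝ, 0 < c ∧ ∀ x : ℤ × ℤ, x ≠ 0 →
      c * ((max |x.1| |x.2| : ℤ) : ℝ) ^ (-(1 / 4 + ε)) ≤ corrInf bCrit x ∧
        corrInf bCrit x ≤ K * ((max |x.1| |x.2| : ℤ) : ℝ) ^ (-(1 / 4 - ε))) ∧
    -- all charges and all neutral correlations at the critical point
    (∀ q : ℕ, 1 ≤ q →
      Tendsto (fun x : ℤ × ℤ => Real.log (chargeInf bCrit ![(q : ℤ), -(q : ℤ)] ![0, x]) /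
        Real.log ((max |x.1| |x.2| : ℤ) : ℝ)) cofinite (𝓝 (-((q : ℝ) ^ 2 / 4)))) ∧
    (∀ (k : ℕ) (m : Fin k → ℤ), ∑ j, m j = 0 → ∀ ε : ℝ, 0 < ε →
      ∃ K : ℝ, ∀ (x : Fin k → ℤ × ℤ) (N : ℕ), 1 ≤ N →
        (∀ i j, max |(x i - x j).1| |(x i - x j).2| ≤ (N : ℤ)) →
        0 < chargeInf bCrit m x ∧
          |Real.log (chargeInf bCrit m x) - 1 / 8 * ∑ i, ∑ j, (m i * m j : ℝ) *
              Real.log (max 1 ((max |(x i - x j).1| |(x i - x j).2| : ℤ) : ℝ))| ≤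
            ε * Real.log N + K) ∧
    -- the correlation length as `b ↑ bCrit`
    (∀ ν : ℝ, ν < 2 / 3 → ∃ c δ : ℝ, 0 < c ∧ 0 < δ ∧ ∀ b : ℝ, bCrit - δ < b → b < bCrit →
      c * (bCrit - b) ^ (-ν) ≤ corrLength b) ∧
    -- its logarithm is asymptotic to that of the finite-volume scale
    (∀ d : ℝ, 0 < d → d < 2 / Real.pi → ∀ ε : ℝ, 0 < ε →
      ∃ δ : ℝ, 0 < δ ∧ ∀ b : ℝ, bCrit - δ < b → b < bCrit →
        ∃ L : ℕ, IsLeast {l : ℕ | 1 ≤ l ∧ stiff l b ≤ 2 / Real.pi - d} L ∧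
          (1 - ε) * Real.log L ≤ Real.log (corrLength b) ∧
          Real.log (corrLength b) ≤ (1 + ε) * Real.log L) ∧
    (∀ ε : ℝ, 0 < ε → ∃ K : ℝ, 0 < K ∧ ∀ b : ℝ, 0 < b → b < bCrit →
      ∀ L : ℕ, 1 ≤ L → (L : ℝ) ≤ corrLength b →
        (2 / Real.pi - stiff L b) * (Real.log (corrLength b) - Real.log L) ≤
          ε * Real.log (corrLength b) + K) ∧
    -- the two-point function in the near critical window
    (∀ ε : ℝ, 0 < ε → ∃ c : ℝ, 0 < c ∧ ∀ b : ℝ, 0 < b → b ≤ bCrit → ∀ x : ℤ × ℤ, x ≠ 0 →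
      (bCrit - b) * ((max |x.1| |x.2| : ℤ) : ℝ) ^ (3 / 2 + ε) ≤ c →
      c * ((max |x.1| |x.2| : ℤ) : ℝ) ^ (-(1 / 4 + ε)) ≤ corrInf b x) ∧
    (∀ ν : ℝ, 0 < ν → ν < 2 / 3 → ∀ ε : ℝ, 0 < ε → ∃ δ : ℝ, 0 < δ ∧ ∃ K : ℝ,
      ∀ b : ℝ, bCrit - δ < b → b < bCrit →
        ∀ x : ℤ × ℤ, x ≠ 0 → ((max |x.1| |x.2| : ℤ) : ℝ) ≤ (bCrit - b) ^ (-ν) →
          |Real.log (corrInf b x) + 1 / 4 * Real.log ((max |x.1| |x.2| : ℤ) : ℝ)| ≤
            ε * Real.log ((max |x.1| |x.2| : ℤ) : ℝ) + K) ∧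
    -- the susceptibility
    (∀ γ : ℝ, 0 < γ → γ < 7 / 6 → ∃ c : ℝ, 0 < c ∧ ∀ b : ℝ, 0 < b → b < bCrit →
      Summable (corrInf b) ∧ c * (bCrit - b) ^ (-γ) ≤ ∑' x : ℤ × ℤ, corrInf b x) :=
  TM.H694.top_of TM.Frame.T1

end Vale.Agent.Results.P159.CriticalExponent
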